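import Vale.Agent.H96.Upper2

open Filter Topology

namespace Vale.Agent.Results.P361.A_BlochOrderUpperBound

open Vale.Agent.H96

/-- Upper bound of Bloch's order on the spontaneous magnetization of the three-dimensional
quantum Heisenberg ferromagnet of spin `S = d/2`, for every `d ≥ 1` and every `β ≥ 1`:
`S - m_S(β) ≥ 1 / (5000000 (2Sβ)^{3/2})`.
The first conjunct is the finite-volume form (no assumption): for small fields `t` and all
large boxes the pressure increment `P_N(t) - P_N(0)` is at most `t (S - δ)`.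
The second conjunct is the thermodynamic form: if `p` is the infinite-volume pressure and
`m` its right derivative at `h = 0`, then `m ≤ S - δ`. -/
theorem result (d : ℕ) (hd : 1 ≤ d) (β : ℝ) (hβ : 1 ≤ β) :
    (∃ h₀ : ℝ, 0 < h₀ ∧ ∃ N₀ : ℕ, ∀ N : ℕ, N₀ ≤ N → ∀ t : ℝ, 0 < t → t ≤ h₀ →
        pressure d N β t - pressure d N β 0 ≤
          t * ((d : ℝ) / 2 - 1 / (5000000 * ((d : ℝ) * β) ^ (3 / 2 : ℝ)))) ∧
    (∀ p : ℝ → ℝ, (∀ h : ℝ, Tendsto (fun N : ℕ => pressure d N β h) atTop (𝓝 (p h))) →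
      ∀ m : ℝ, HasDerivWithinAt p m (Set.Ioi 0) 0 →
        m ≤ (d : ℝ) / 2 - 1 / (5000000 * ((d : ℝ) * β) ^ (3 / 2 : ℝ))) :=
  bloch_upper d hd β hβ

end Vale.Agent.Results.P361.A_BlochOrderUpperBound
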