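import Vale.Agent.H96.Sharp.BlochSharp

open Filter Topology

namespace Vale.Agent.Results.P361.A_BlochSharpUpperBound

open Vale.Agent.H96

/-- The sharp upper half of Bloch's law for the three-dimensional quantum Heisenberg ferromagnet
of spin `S = d/2`, for every `d ≥ 1`: for every `ε > 0` and all large `β`,
`S - m_S(β) ≥ (1 - ε) ζ(3/2) / (8 π^{3/2} S^{3/2} β^{3/2})`, where `ζ(3/2) = ∑_{n ≥ 0} (n+1)^{-3/2}`.
The first conjunct is the finite-volume form (no assumption): for small fields `t` and all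
boxes the pressure increment `P_N(t) - P_N(0)` is at most `t (S - δ)`, with `δ` the right side
above. The second conjunct is the thermodynamic form: if `p` is the infinite-volume pressure
and `m` its right derivative at `h = 0`, then `m ≤ S - δ`. -/
theorem result (d : ℕ) (hd : 1 ≤ d) (ε : ℝ) (hε : 0 < ε) :
    ∃ β₀ : ℝ, 0 < β₀ ∧ ∀ β : ℝ, β₀ ≤ β →
      (∃ h₀ : ℝ, 0 < h₀ ∧ ∀ N : ℕ, ∀ t : ℝ, 0 < t → t ≤ h₀ →
        pressure d N β t - pressure d N β 0 ≤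
          t * ((d : ℝ) / 2 - (1 - ε) * (∑' n : ℕ, 1 / ((n : ℝ) + 1) ^ (3 / 2 : ℝ)) /
            (8 * Real.pi ^ (3 / 2 : ℝ) * ((d : ℝ) / 2) ^ (3 / 2 : ℝ) * β ^ (3 / 2 : ℝ)))) ∧
      (∀ p : ℝ → ℝ, (∀ h : ℝ, Tendsto (fun N : ℕ => pressure d N β h) atTop (𝓝 (p h))) →
        ∀ m : ℝ, HasDerivWithinAt p m (Set.Ioi 0) 0 →
          m ≤ (d : ℝ) / 2 - (1 - ε) * (∑' n : ℕ, 1 / ((n : ℝ) + 1) ^ (3 / 2 : ℝ)) /
            (8 * Real.pi ^ (3 / 2 : ℝ) * ((d : ℝ) / 2) ^ (3 / 2 : ℝ) * β ^ (3 / 2 : ℝ))) :=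
  bloch_sharp d hd ε hε

end Vale.Agent.Results.P361.A_BlochSharpUpperBound
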