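import Vale.Agent.H96.Upper2
import Vale.Agent.H96.Sharp.BlochSharp

open Filter Topology

namespace Vale.Agent.Results.P361.B_BlochUpperCombined

open Vale.Agent.H96

/-- The two upper bounds on the spontaneous magnetization of the three-dimensional quantum
Heisenberg ferromagnet of spin `S = d/2`, `d ≥ 1`, in one statement.

First part (every `β ≥ 1`, explicit constant): `S - m_S(β) ≥ 1 / (5000000 (2Sβ)^{3/2})`.
Second part (sharp constant, large `β`): for every `ε > 0` and all `β ≥ β₀(ε, d)`,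
`S - m_S(β) ≥ (1 - ε) ζ(3/2) / (8 π^{3/2} S^{3/2} β^{3/2})`, where `ζ(3/2) = ∑_{n ≥ 0} (n+1)^{-3/2}`.

Each part has a finite-volume form (no assumption): for small fields `t` the pressure increment
`P_N(t) - P_N(0)` is at most `t (S - δ)` (for all large boxes in the first part, for all boxes in
the second), and a thermodynamic form: if `p` is the infinite-volume pressure and `m` its right
derivative at `h = 0`, then `m ≤ S - δ`. -/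
theorem result (d : ℕ) (hd : 1 ≤ d) :
    (∀ β : ℝ, 1 ≤ β →
      (∃ h₀ : ℝ, 0 < h₀ ∧ ∃ N₀ : ℕ, ∀ N : ℕ, N₀ ≤ N → ∀ t : ℝ, 0 < t → t ≤ h₀ →
        pressure d N β t - pressure d N β 0 ≤
          t * ((d : ℝ) / 2 - 1 / (5000000 * ((d : ℝ) * β) ^ (3 / 2 : ℝ)))) ∧
      (∀ p : ℝ → ℝ, (∀ h : ℝ, Tendsto (fun N : ℕ => pressure d N β h) atTop (𝓝 (p h))) →
        ∀ m : ℝ, HasDerivWithinAt p m (Set.Ioi 0) 0 →
          m ≤ (d : ℝ) / 2 - 1 / (5000000 * ((d : ℝ) * β) ^ (3 / 2 : ℝ)))) ∧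
    (∀ ε : ℝ, 0 < ε → ∃ β₀ : ℝ, 0 < β₀ ∧ ∀ β : ℝ, β₀ ≤ β →
      (∃ h₀ : ℝ, 0 < h₀ ∧ ∀ N : ℕ, ∀ t : ℝ, 0 < t → t ≤ h₀ →
        pressure d N β t - pressure d N β 0 ≤
          t * ((d : ℝ) / 2 - (1 - ε) * (∑' n : ℕ, 1 / ((n : ℝ) + 1) ^ (3 / 2 : ℝ)) /
            (8 * Real.pi ^ (3 / 2 : ℝ) * ((d : ℝ) / 2) ^ (3 / 2 : ℝ) * β ^ (3 / 2 : ℝ)))) ∧
      (∀ p : ℝ → ℝ, (∀ h : ℝ, Tendsto (fun N : ℕ => pressure d N β h) atTop (𝓝 (p h))) →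
        ∀ m : ℝ, HasDerivWithinAt p m (Set.Ioi 0) 0 →
          m ≤ (d : ℝ) / 2 - (1 - ε) * (∑' n : ℕ, 1 / ((n : ℝ) + 1) ^ (3 / 2 : ℝ)) /
            (8 * Real.pi ^ (3 / 2 : ℝ) * ((d : ℝ) / 2) ^ (3 / 2 : ℝ) * β ^ (3 / 2 : ℝ)))) :=
  ⟨fun β hβ => bloch_upper d hd β hβ, fun ε hε => bloch_sharp d hd ε hε⟩

end Vale.Agent.Results.P361.B_BlochUpperCombined
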