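import Vale.Agent.H96.Upper2
import Vale.Agent.H96.Sharp.BlochSharp

open Filter Topology

namespace Vale.Agent.Results.P361.C_BlochUpperAndStrict

open Vale.Agent.H96

/-- The two upper bounds on the spontaneous magnetization of the three-dimensional quantum
Heisenberg ferromagnet of spin `S = d/2`, `d ≥ 1` (the statement of `B_BlochUpperCombined`),
together with their corollary in the words of the problem file: at every `β ≥ 1` the spontaneous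
magnetization is strictly smaller than the saturation value `S`.

First part (every `β ≥ 1`, explicit constant): `S - m_S(β) ≥ 1 / (5000000 (2Sβ)^{3/2})`.
Second part (sharp constant, large `β`): for every `ε > 0` and all `β ≥ β₀(ε, d)`,
`S - m_S(β) ≥ (1 - ε) ζ(3/2) / (8 π^{3/2} S^{3/2} β^{3/2})`, where `ζ(3/2) = ∑_{n ≥ 0} (n+1)^{-3/2}`.
Third part (corollary of the first): for every `β ≥ 1`, if `p` is the infinite-volume pressure and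
`m` its right derivative at `h = 0`, then `m < S`. -/
theorem result (d : ℕ) (hd : 1 ≤ d) :
    ((∀ β : ℝ, 1 ≤ β →
      (∃ h₀ : ℝ, 0 < h₀ ∧ ∃ N₀ : ℕ, ∀ N : ℕ, N₀ ≤ N → ∀ t : ℝ, 0 < t → t ≤ h₀ →
        pressure d N β t - pressure d N β 0 ≤
          t * ((d : ℝ) / 2 - 1 / (5000000 * ((d : ℝ) * β) ^ (3 / 2 : ℝ)))) ∧
      (∀ p : ℝ → ℝ, (∀ h : ℝ, Tendsto (fun N : ℕ => pressure d N β h) atTop (𝓝 (p h))) →
        ∀ m : ℝ, HasDerivWithinAt p m (Set.Ioi 0) 0 →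
          m ≤ (d : ℝ) / 2 - 1 / (5000000 * ((d : ℝ) * β) ^ (3 / 2 : ℝ)))) ∧
    (∀ ε : ℝ, 0 < ε → ∃ β₀ : ℝ, 0 < β₀ ∧ ∀ β : ℝ, β₀ ≤ β →
      (∃ h₀ : ℝ, 0 < h₀ ∧ ∀ N : ℕ, ∀ t : ℝ, 0 < t → t ≤ h₀ →
        pressure d N β t - pressure d N β 0 ≤
          t * ((d : ℝ) / 2 - (1 - ε) * (∑' n : ℕ, 1 / ((n : ℝ) + 1) ^ (3 / 2 : ℝ)) /
            (8 * Real.pi ^ (3 / 2 : ℝ) * ((d : ℝ) / 2) ^ (3 / 2 : ℝ) * β ^ (3 / 2 : ℝ)))) ∧
      (∀ p : ℝ → ℝ, (∀ h : ℝ, Tendsto (fun N : ℕ => pressure d N β h) atTop (𝓝 (p h))) →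
        ∀ m : ℝ, HasDerivWithinAt p m (Set.Ioi 0) 0 →
          m ≤ (d : ℝ) / 2 - (1 - ε) * (∑' n : ℕ, 1 / ((n : ℝ) + 1) ^ (3 / 2 : ℝ)) /
            (8 * Real.pi ^ (3 / 2 : ℝ) * ((d : ℝ) / 2) ^ (3 / 2 : ℝ) * β ^ (3 / 2 : ℝ))))) ∧
    (∀ β : ℝ, 1 ≤ β →
      ∀ p : ℝ → ℝ, (∀ h : ℝ, Tendsto (fun N : ℕ => pressure d N β h) atTop (𝓝 (p h))) →
        ∀ m : ℝ, HasDerivWithinAt p m (Set.Ioi 0) 0 → m < (d : ℝ) / 2) := by
  refine ⟨⟨fun β hβ => bloch_upper d hd β hβ, fun ε hε => bloch_sharp d hd ε hε⟩, ?_⟩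
  intro β hβ p hp m hm
  have h1 := (bloch_upper d hd β hβ).2 p hp m hm
  have hd' : (0 : ℝ) < (d : ℝ) := by exact_mod_cast hd
  have hβ0 : (0 : ℝ) < β := lt_of_lt_of_le one_pos hβ
  have hpow : (0 : ℝ) < ((d : ℝ) * β) ^ (3 / 2 : ℝ) := Real.rpow_pos_of_pos (mul_pos hd' hβ0) _
  have hpos : (0 : ℝ) < 1 / (5000000 * ((d : ℝ) * β) ^ (3 / 2 : ℝ)) :=
    div_pos one_pos (mul_pos (by norm_num) hpow)
  linarith

end Vale.Agent.Results.P361.C_BlochUpperAndStrict
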